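import Crest.Agent.R231.Alg.Main
import Crest.Agent.R231.L.Main
import Crest.Agent.R231.GM.Main
import Crest.Agent.R231.O.Main

/-! R231: assembly of the blocks. -/

set_option autoImplicit false
open Set
noncomputable section
namespace Crest.Agent.R231

theorem Setup.false {n : ℕ} (hn : 2 ≤ n) (G : Setup n) : False := by
  obtain ⟨sig, s1, s2, s3, s4, s5, s6, s7, s8⟩ := G.exists_sig
  obtain ⟨s, Cg, α, Φ, g1, g2, g3, g4, g5, g6, g7, g8, g9, g10, g11, g12, g13, g14, g15, g16⟩ := G.global hn
  refine Alg.false hn
    { C := Ch G.Loop, acg := inferInstance, mod := inferInstance, p := pr, p_p := pr_pr, p_sum := exists_sum_pr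
      d := dd, d_d := dd_dd, d_p := dd_pr, d_p0 := dd_pr_zero
      F := fun l => sup (G.Lt l)
      F_mono := fun a b h => sup_mono fun γ (hγ : γ.T < a) => lt_of_lt_of_le hγ h
      F_ex := Setup.exists_mem_Lt
      F_p := fun l i c h => pr_mem i h, F_d := fun l c h => dd_mem h
      sig := sig, sig_p := s1, sig_d := s2, sig_sig := s3
      sig_F := fun k l c h => s4 _ (fun _ _ h => h) k c h
      τ := G.tauC, τ_τ := G.tauC_tauC, τ_p := fun i c => mp_pr _ i c, τ_d := G.dd_tauC
      τ_F := fun l c h => mp_mem h (fun _ h => h)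
      B := G.BC, B_p := G.BC_pr, B_d := G.dd_BC, B_τ := G.tauC_BC
      B_sig := fun c h => by rw [s5]; exact G.BC_half h
      j := G.jC, j_p := fun i c => mp_pr _ i c, j_d := G.dd_jC
      j_F := fun l c h => mp_mem h (fun γ (hγ : γ.T < l) => show 2 * γ.T < 2 * l by linarith)
      sig_j := s6, loc_surj := s7, loc_inj := s8
      crit := G.critV, crit_fin := Setup.critV_fin
      const := fun a b ha hab h c hc hd => G.const ha hab h hc hd
      findim := fun l => by
        obtain ⟨R, hR⟩ := G.findim l
        rw [RankLE_iff, sup_empty] at hR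
        exact ⟨R, hR⟩
      gm := G.gm
      O := fun l b r => sup (G.Tube l b r)
      O_mono := fun l b r r' h => sup_mono (Metric.thickening_mono h _)
      O_p := fun l b r i c h => pr_mem i h, O_d := fun l b r c h => dd_mem h
      O_sig := fun l b r k c h => s4 _ (fun s _ h => Setup.shift_mem_Tube s h) k c h
      O_τ := fun l b r c h => mp_mem h (fun _ h => Setup.tau_mem_Tube h)
      O_j := fun l b r c h => mp_mem h (fun _ h => Setup.dbl_mem_Tube h)
      n1 := fun l hl r hr => by simpa only [sup_inf] using G.n1 hl hr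
      n2 := fun l hl r hr => by simpa only [sup_inf] using G.n2 hl hr
      s := s, Cg := Cg, Cg_pos := g1, s_nonneg := g2, s_super := g3, s_step := g4, bars := g5
      α := α, α_p := g6, α_d := g7, α_F := g8, Φ := Φ, Φ_d := g9, Φ_deg := g10, Φ_ker := g11, Φ_τ := g12
      Φ_α := g13, Φ_Bα := g14, up := g15, low := g16 }

end Crest.Agent.R231
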